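import Vale.Agent.P181.GN.H457.Small
import Vale.Agent.P181.GN.H856.All
import Vale.Agent.P181.GN.H242.Q1
import Vale.Agent.P181.GN.H674.Q2
import Vale.Agent.P181.GN.H180.Q3
import Vale.Agent.P181.GN.H283.Q5
import Vale.Agent.P181.GN.H317.Q6a
import Vale.Agent.P181.GN.H481.Q6b
import Vale.Agent.P181.GN.H89.Fin

set_option autoImplicit false

/-!
# P181, GN: the closed theorem. For all `a ≤ b` and all `λ` with `P w ≤ b ^ 2`
-/

namespace Vale.Agent.P181.GN.H457

open Vale.Agent.P181.GN

/-- **[Q6]**, closed. -/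
theorem q6c : Q6 := H317.q6_of H317.q6a (H481.q6b H820.fd (H787.q8m H820.fd))

/-- **[Q9]**, the core, closed. -/
theorem corec : Core := H856.core_of H242.q1 H674.q2 H180.q3 H283.q5 q6c H89.q7

/-- **Few cells below row two, every `a ≤ b`**, closed. -/
theorem smallD2c : O2.H457.SmallD2 := smallD2_of corec

/-- **The theorem**, closed: there are `C`, `c` such that Foulkes' inequality holds for all
`a ≤ b` and all `λ` with `C (1 + log a) ^ c (λ_2 + λ_3 + ⋯) ≤ b ^ 2`. -/
theorem uniAllc : DX.H556.UniAll := uniAll_of_core corec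

end Vale.Agent.P181.GN.H457
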