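import Vale.Agent.P181.GN.Defs
import Vale.Agent.P181.O2.H457.Fin
import Vale.Agent.P181.H534.ThinHW
import Vale.Agent.P181.PL10.Lin

set_option autoImplicit false

/-!
# P181, GN: few cells below row two, from the core
-/

namespace Vale.Agent.P181.GN.H457

open Vale.Agent.P181.T4 (ex)
open Vale.Agent.P181.H280 (plethMult)
open Vale.Agent.P181.PL
open Vale.Agent.P181.SZ (tl TI)
open Vale.Agent.P181.DX.X924 (few_all)

lemma aux {M la l2 : ℝ} (h : M * l2 ≤ 3 * l2 + 20 * la) (hla : 0 ≤ la) (hl2 : 69 / 100 ≤ l2) :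
    M ≤ 3 + 29 * la := by
  by_contra hcon
  rw [not_le] at hcon
  have h10 : (3 + 29 * la) * l2 < M * l2 := mul_lt_mul_of_pos_right hcon (by linarith)
  have h11 : 0 ≤ la * (l2 - 69 / 100) := mul_nonneg hla (by linarith)
  nlinarith

/-- The number of steps. -/
lemma exists_K {a w : ℕ} (hw : 1 ≤ w) (ha : 1 ≤ a) (hwa : w + 2 ≤ a ^ 2) :
    ∃ K : ℕ, 8 * (w + 2) ^ 10 ≤ 2 ^ K ∧ (K : ℝ) ≤ 30 * (1 + Real.log a) := by
  have hN : 1 < 8 * (w + 2) ^ 10 := by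
    have : 1 ≤ (w + 2) ^ 10 := Nat.one_le_pow _ _ (by omega)
    omega
  refine ⟨Nat.clog 2 (8 * (w + 2) ^ 10), Nat.le_pow_clog (by norm_num) _, ?_⟩
  have h1 := Nat.pow_pred_clog_lt_self (b := 2) (by norm_num) hN
  obtain ⟨M, hM⟩ : ∃ M, M = (Nat.clog 2 (8 * (w + 2) ^ 10)).pred := ⟨_, rfl⟩
  rw [← hM] at h1
  have hK : Nat.clog 2 (8 * (w + 2) ^ 10) ≤ M + 1 := by
    rw [hM, Nat.pred_eq_sub_one]
    omega
  have hK' : ((Nat.clog 2 (8 * (w + 2) ^ 10) : ℕ) : ℝ) ≤ M + 1 := by exact_mod_cast hK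
  have hlog2 := Real.log_two_gt_d9
  have h2 : (2 : ℝ) ^ M ≤ 8 * ((w : ℝ) + 2) ^ 10 := by exact_mod_cast h1.le
  have hw2 : (0 : ℝ) < (w : ℝ) + 2 := by positivity
  have h3 : (M : ℝ) * Real.log 2 ≤ Real.log 8 + 10 * Real.log ((w : ℝ) + 2) := by
    have h4 := Real.log_le_log (by positivity) h2
    rw [Real.log_pow, Real.log_mul (by norm_num) (by positivity), Real.log_pow] at h4
    exact_mod_cast h4
  have h8 : Real.log 8 = 3 * Real.log 2 := by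
    rw [show (8 : ℝ) = 2 ^ 3 by norm_num, Real.log_pow]
    norm_num
  have ha0 : (0 : ℝ) < a := by exact_mod_cast ha
  have h5 : Real.log ((w : ℝ) + 2) ≤ 2 * Real.log a := by
    have h6 : (w : ℝ) + 2 ≤ (a : ℝ) ^ 2 := by exact_mod_cast hwa
    have h7 := Real.log_le_log hw2 h6
    rw [Real.log_pow] at h7
    exact_mod_cast h7
  have hla : 0 ≤ Real.log a := Real.log_natCast_nonneg a
  have h9 : (M : ℝ) ≤ 3 + 29 * Real.log a := by
    refine aux (l2 := Real.log 2) ?_ hla (by linarith)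
    rw [h8] at h3
    linarith
  linarith

/-- The numbers. -/
lemma numbers {a w : ℕ} (hw : 1 ≤ w) (ha : 1 ≤ a)
    (h : 300000 * (1 + Real.log a) ^ 2 * (w : ℝ) ≤ (a : ℝ) ^ 2) :
    ∃ X K S : ℕ, 0 < S ∧ 6 * K * S ≤ a ∧ X * w ≤ S ^ 2 ∧ 8 * (w + 2) ^ 10 ≤ X ^ K := by
  have hla : 0 ≤ Real.log a := Real.log_natCast_nonneg a
  have hw0 : (0 : ℝ) ≤ (w : ℝ) := Nat.cast_nonneg _
  have hL2 : (1 : ℝ) ≤ (1 + Real.log a) ^ 2 := one_le_pow₀ (by linarith)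
  have hwa : w + 2 ≤ a ^ 2 := by
    have h1 : (w : ℝ) ≤ (1 + Real.log a) ^ 2 * w := le_mul_of_one_le_left hw0 hL2
    have h2 : ((3 * w : ℕ) : ℝ) ≤ ((a ^ 2 : ℕ) : ℝ) := by
      push_cast
      nlinarith
    have h3 : 3 * w ≤ a ^ 2 := Nat.cast_le.1 h2
    omega
  obtain ⟨K, hK1, hK2⟩ := exists_K hw ha hwa
  obtain ⟨r, hr⟩ : ∃ r, r = Nat.sqrt (2 * w) := ⟨_, rfl⟩
  have hr1 : 2 * w < (r + 1) * (r + 1) := by
    rw [hr]
    exact Nat.lt_succ_sqrt _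
  have hr2 : r * r ≤ 2 * w := by
    rw [hr]
    exact Nat.sqrt_le _
  have hr3 : r ≤ 2 * w := by
    rw [hr]
    exact Nat.sqrt_le_self _
  refine ⟨2, K, r + 1, Nat.succ_pos _, ?_, by rw [sq]; exact hr1.le, hK1⟩
  have hS : (r + 1) ^ 2 ≤ 8 * w := by
    calc (r + 1) ^ 2 = r * r + 2 * r + 1 := by ring
      _ ≤ 8 * w := by omega
  have hS' : ((r : ℝ) + 1) ^ 2 ≤ 8 * w := by exact_mod_cast hS
  have hK0 : (0 : ℝ) ≤ (K : ℝ) := Nat.cast_nonneg _
  have hKsq : (K : ℝ) ^ 2 ≤ (30 * (1 + Real.log a)) ^ 2 := pow_le_pow_left₀ hK0 hK2 2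
  have h1 : (6 * (K : ℝ) * ((r : ℝ) + 1)) ^ 2 ≤ (a : ℝ) ^ 2 := by
    calc (6 * (K : ℝ) * ((r : ℝ) + 1)) ^ 2 = 36 * ((K : ℝ) ^ 2 * ((r : ℝ) + 1) ^ 2) := by ring
      _ ≤ 36 * ((30 * (1 + Real.log a)) ^ 2 * (8 * w)) := by
          apply mul_le_mul_of_nonneg_left _ (by norm_num)
          exact mul_le_mul hKsq hS' (by positivity) (by positivity)
      _ = 259200 * ((1 + Real.log a) ^ 2 * (w : ℝ)) := by ring
      _ ≤ 300000 * ((1 + Real.log a) ^ 2 * (w : ℝ)) :=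
          mul_le_mul_of_nonneg_right (by norm_num) (by positivity)
      _ = 300000 * (1 + Real.log a) ^ 2 * (w : ℝ) := by ring
      _ ≤ (a : ℝ) ^ 2 := h
  have h2 : 6 * (K : ℝ) * ((r : ℝ) + 1) ≤ (a : ℝ) :=
    (pow_le_pow_iff_left₀ (by positivity) (Nat.cast_nonneg _) (by norm_num)).1 h1
  exact_mod_cast h2

/-- **Few cells below row two**, from the core. -/
theorem smallD2_of (hC : Core) : O2.H457.SmallD2 := by
  refine ⟨300000, 2, by norm_num, fun a b hab n lam hD hw => ?_⟩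
  rcases hab.eq_or_lt with hab' | hab'
  · subst hab'
    exact le_rfl
  refine PL10.trimQ lam fun k mu hanti hsum hpos hka hdn => ?_
  rw [← hdn 2] at hD
  rw [← hdn 1] at hw
  rcases Nat.lt_or_ge (b + 1) (dn mu 2 + a) with h1 | h1
  swap
  · exact few_all hab mu h1
  have hk : 3 ≤ k := by
    by_contra hcon
    have := dn_ge mu (show k ≤ 2 by omega)
    omega
  obtain ⟨j, rfl⟩ : ∃ j, k = j + 3 := ⟨k - 3, by omega⟩
  rcases Nat.lt_or_ge (ex mu 2) 2 with h2 | h2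
  · refine (H534.plethMult_eq (n := j + 1) mu fun i => ?_).le
    have h3 : ex mu ((i.succ.succ : Fin (j + 3)) : ℕ) ≤ ex mu 2 :=
      exanti hanti (by rw [Fin.val_succ, Fin.val_succ]; omega)
    rw [exfin] at h3
    omega
  obtain ⟨m0, hm0⟩ : ∃ m0 : ℕ, m0 = mu 1 := ⟨_, rfl⟩
  obtain ⟨tau, htau⟩ : ∃ tau : Fin (j + 1) → ℕ, tau = fun i => mu i.succ.succ := ⟨_, rfl⟩
  have htl : tl (m := j + 2) mu = Fin.cons m0 tau := by
    funext i
    refine Fin.cases ?_ (fun i => ?_) i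
    · rw [Fin.cons_zero, hm0]
      rfl
    · rw [Fin.cons_succ, htau]
      rfl
  have hsumtl : dn mu 1 = m0 + ∑ i, tau i := by
    rw [PL5.dn_one (m := j + 2) mu, htl, Fin.sum_univ_succ, Fin.cons_zero]
    rfl
  have hex1 : ex mu 1 = m0 := by
    rw [exlt mu (by omega : 1 < j + 3), hm0]
    rfl
  have hDtau : dn mu 2 = ∑ i, tau i := by
    have e1 := dn_succ mu 1
    have e2 : dn mu (1 + 1) = dn mu 2 := rfl
    omega
  have htau0 : 2 ≤ tau 0 := by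
    rw [exlt mu (by omega : 2 < j + 3)] at h2
    rw [htau]
    exact h2
  have hw1 : 1 ≤ dn mu 1 := by
    have e1 := dn_anti mu (show 1 ≤ 2 by norm_num)
    omega
  obtain ⟨X, K, S, hS, h6, hX, hN⟩ := numbers hw1 (by omega) hw
  have h128 : 128 * dn mu 1 ≤ a * b := by
    have hla : 0 ≤ Real.log a := Real.log_natCast_nonneg a
    have hw0 : (0 : ℝ) ≤ (dn mu 1 : ℝ) := Nat.cast_nonneg _
    have hL2 : (1 : ℝ) ≤ (1 + Real.log a) ^ 2 := one_le_pow₀ (by linarith)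
    have e1 : (dn mu 1 : ℝ) ≤ (1 + Real.log a) ^ 2 * dn mu 1 := le_mul_of_one_le_left hw0 hL2
    have e2 : ((128 * dn mu 1 : ℕ) : ℝ) ≤ ((a ^ 2 : ℕ) : ℝ) := by
      push_cast
      nlinarith
    have e3 : 128 * dn mu 1 ≤ a ^ 2 := Nat.cast_le.1 e2
    calc 128 * dn mu 1 ≤ a ^ 2 := e3
      _ = a * a := sq a
      _ ≤ a * b := Nat.mul_le_mul_left _ hab
  have hcore := hC j a b m0 (dn mu 1) X K S tau hab' htau0 hsumtl (by omega) h128 hS h6
    (by omega) hX hN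
  unfold T at hcore
  rw [← htl] at hcore
  calc plethMult a b (j + 3) mu ≤ Module.finrank ℂ (TI a b (j + 2) (tl (m := j + 2) mu)) :=
        SZ.R1a a b (j + 2) mu
    _ ≤ Module.finrank ℂ (TI b a (j + 2) (tl (m := j + 2) mu)) := hcore
    _ ≤ plethMult b a (j + 3) mu := SZR2a.lowerA a b (j + 2) mu hsum

/-- **The theorem for all `a ≤ b`**, from the core. -/
theorem uniAll_of_core (hC : Core) : DX.H556.UniAll :=
  O2.H457.uniAllc_of_d2 (smallD2_of hC)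

end Vale.Agent.P181.GN.H457
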